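import Vale.Agent.P181.DG.Defs
import Vale.Agent.P181.SZR4.Ren

set_option autoImplicit false

/-!
# P181, DG (D5): few letters
-/

open MvPolynomial

namespace Vale.Agent.P181.DG5

open Vale.Agent.P181.T4 (HW mem_HW)
open Vale.Agent.P181.SZR4 (vm vm_injective coeff_ren ren_mem_HW)
open Vale.Agent.P181.DG

lemma PKT_le_HW (m S : ℕ) (σ : Type) [Fintype σ] (d : σ → ℕ) (t : ℕ) (mu : Fin m → ℕ) :
    PKT m S σ d t mu ≤ HW m (σ ⊕ Fin t) mu := fun _ hf => hf.1

instance finiteDimensional_PKT (m S : ℕ) (σ : Type) [Fintype σ] (d : σ → ℕ) (t : ℕ)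
    (mu : Fin m → ℕ) : FiniteDimensional ℂ (PKT m S σ d t mu) :=
  Submodule.finiteDimensional_of_le (PKT_le_HW m S σ d t mu)

/-- Families of highest weight polynomials with pairwise different large column degrees. -/
lemma sum_finrank_le {m S J : ℕ} {mu : Fin m → ℕ} {ι : Type} [Fintype ι] (σ : ι → Type)
    [∀ i, Fintype (σ i)] (d : ∀ i, σ i → ℕ) (t : ι → ℕ) (g : ∀ i, σ i ⊕ Fin (t i) → Fin J)
    (hg : ∀ i, Function.Injective (g i))
    (hD : ∀ i i' (D : Fin J → ℕ), (∀ j, D (g i (Sum.inl j)) = d i j) →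
      (∀ j, D (g i (Sum.inr j)) < S) → (∀ j, j ∉ Set.range (g i) → D j = 0) →
      (∀ j, D (g i' (Sum.inl j)) = d i' j) →
      (∀ j, D (g i' (Sum.inr j)) < S) → (∀ j, j ∉ Set.range (g i') → D j = 0) → i' = i) :
    ∑ i, Module.finrank ℂ (PKT m S (σ i) (d i) (t i) mu) ≤
      Module.finrank ℂ (HW m (Fin J) mu) := by
  classical
  have hcol : ∀ i (f : PKT m S (σ i) (d i) (t i) mu) (v : Fin m × Fin J →₀ ℕ),
      coeff v (rename (vm m (g i)) (f : MvPolynomial (Fin m × (σ i ⊕ Fin (t i))) ℂ)) ≠ 0 →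
      (∀ j, ∑ r, v (r, g i (Sum.inl j)) = d i j) ∧
      (∀ j, ∑ r, v (r, g i (Sum.inr j)) < S) ∧
      (∀ j, j ∉ Set.range (g i) → ∑ r, v (r, j) = 0) := by
    intro i f v hv
    obtain ⟨u, hu, hu1, hu2⟩ := coeff_ren (hg i) hv
    obtain ⟨h1, h2⟩ := f.2.2.1 u hu
    refine ⟨fun j => ?_, fun j => ?_, fun j hj => ?_⟩
    · rw [← h1 j]
      exact Finset.sum_congr rfl fun r _ => hu1 r _
    · rw [show (∑ r, v (r, g i (Sum.inr j))) = ∑ r, u (r, Sum.inr j) from
        Finset.sum_congr rfl fun r _ => hu1 r _]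
      exact h2 j
    · exact Finset.sum_eq_zero fun r _ => hu2 r j hj
  let L : (∀ i, PKT m S (σ i) (d i) (t i) mu) →ₗ[ℂ] HW m (Fin J) mu :=
    { toFun := fun F => ∑ i, ⟨rename (vm m (g i))
          (F i : MvPolynomial (Fin m × (σ i ⊕ Fin (t i))) ℂ), ren_mem_HW (hg i) (F i).2.1⟩
      map_add' := fun F G => by
        rw [← Finset.sum_add_distrib]
        refine Finset.sum_congr rfl fun i _ => Subtype.ext ?_
        exact map_add (rename (vm m (g i)))
          (F i : MvPolynomial (Fin m × (σ i ⊕ Fin (t i))) ℂ) (G i)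
      map_smul' := fun c F => by
        rw [RingHom.id_apply, Finset.smul_sum]
        refine Finset.sum_congr rfl fun i _ => Subtype.ext ?_
        exact map_smul (rename (vm m (g i))) c
          (F i : MvPolynomial (Fin m × (σ i ⊕ Fin (t i))) ℂ) }
  have hL : Function.Injective L := by
    rw [← LinearMap.ker_eq_bot, LinearMap.ker_eq_bot']
    intro F hF
    funext i
    apply Subtype.ext
    have h3 : rename (vm m (g i))
        (F i : MvPolynomial (Fin m × (σ i ⊕ Fin (t i))) ℂ) = 0 := by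
      ext v
      rw [coeff_zero]
      by_contra hv
      have h4 : coeff v ((L F : HW m (Fin J) mu) : MvPolynomial (Fin m × Fin J) ℂ) = 0 := by
        rw [hF]
        exact coeff_zero v
      have h5 : ((L F : HW m (Fin J) mu) : MvPolynomial (Fin m × Fin J) ℂ) =
          ∑ i, rename (vm m (g i))
            (F i : MvPolynomial (Fin m × (σ i ⊕ Fin (t i))) ℂ) := by
        change ((∑ i, (⟨rename (vm m (g i))
          (F i : MvPolynomial (Fin m × (σ i ⊕ Fin (t i))) ℂ),
          ren_mem_HW (hg i) (F i).2.1⟩ : HW m (Fin J) mu) : HW m (Fin J) mu) :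
            MvPolynomial (Fin m × Fin J) ℂ) = _
        rw [AddSubmonoidClass.coe_finsetSum]
      rw [h5, coeff_sum, Finset.sum_eq_single i] at h4
      · exact hv h4
      · intro i' _ hi'
        by_contra h6
        obtain ⟨a1, a2, a3⟩ := hcol i (F i) v hv
        obtain ⟨b1, b2, b3⟩ := hcol i' (F i') v h6
        exact hi' (hD i i' (fun j => ∑ r, v (r, j)) a1 a2 a3 b1 b2 b3)
      · intro h
        exact absurd (Finset.mem_univ i) h
    exact (rename_injective _ (vm_injective (hg i))) (h3.trans (map_zero _).symm)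
  rw [← Module.finrank_pi_fintype ℂ]
  exact LinearMap.finrank_le_finrank_of_injective hL

/-- The columns: the large ones first, then the small ones. -/
def place (J n : ℕ) (h : n ≤ J) : Fin n ⊕ Fin (J - n) → Fin J :=
  Sum.elim (Fin.castLE h) (fun j => ⟨n + j, by have := j.2; omega⟩)

lemma place_injective (J n : ℕ) (h : n ≤ J) : Function.Injective (place J n h) := by
  rintro (x | x) (y | y) hxy
  · exact congrArg Sum.inl (Fin.castLE_injective h hxy)
  · exfalso
    have h1 := congrArg Fin.val hxy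
    simp only [place, Sum.elim_inl, Sum.elim_inr, Fin.val_castLE] at h1
    have := x.2
    omega
  · exfalso
    have h1 := congrArg Fin.val hxy
    simp only [place, Sum.elim_inl, Sum.elim_inr, Fin.val_castLE] at h1
    have := y.2
    omega
  · have h1 := congrArg Fin.val hxy
    simp only [place, Sum.elim_inr] at h1
    exact congrArg Sum.inr (Fin.ext (by omega))

lemma toList_inj_of {J S : ℕ} {k k' : Multiset ℕ} (hk : ∀ x ∈ k, S ≤ x) (hk' : ∀ x ∈ k', S ≤ x)
    (hJ : k.toList.length ≤ J) (hJ' : k'.toList.length ≤ J) (D : Fin J → ℕ)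
    (h1 : ∀ j, D (place J _ hJ (Sum.inl j)) = k.toList.get j)
    (h2 : ∀ j, D (place J _ hJ (Sum.inr j)) < S)
    (h1' : ∀ j, D (place J _ hJ' (Sum.inl j)) = k'.toList.get j)
    (h2' : ∀ j, D (place J _ hJ' (Sum.inr j)) < S) : k' = k := by
  have key : ∀ {k k' : Multiset ℕ}, (∀ x ∈ k', S ≤ x) → ∀ (hJ : k.toList.length ≤ J)
      (hJ' : k'.toList.length ≤ J), (∀ j, D (place J _ hJ (Sum.inr j)) < S) →
      (∀ j, D (place J _ hJ' (Sum.inl j)) = k'.toList.get j) →
      k'.toList.length ≤ k.toList.length := by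
    intro k k' hk' hJ hJ' h2 h1'
    by_contra hlt
    rw [not_le] at hlt
    have e1 := h1' ⟨k.toList.length, hlt⟩
    have e2 := h2 ⟨0, by omega⟩
    have e3 : place J _ hJ (Sum.inr ⟨0, by omega⟩) =
        place J _ hJ' (Sum.inl ⟨k.toList.length, hlt⟩) := by
      apply Fin.ext
      simp [place]
    rw [e3, e1] at e2
    have e4 := hk' _ (Multiset.mem_toList.1 (List.get_mem k'.toList ⟨k.toList.length, hlt⟩))
    omega
  have hl : k'.toList.length = k.toList.length :=
    le_antisymm (key hk' hJ hJ' h2 h1') (key hk hJ' hJ h2' h1)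
  rw [← Multiset.coe_toList k, ← Multiset.coe_toList k']
  congr 1
  apply List.ext_getElem hl
  intro i hi hi'
  have e1 := h1' ⟨i, hi⟩
  have e2 := h1 ⟨i, hi'⟩
  have e3 : place J _ hJ (Sum.inl ⟨i, hi'⟩) = place J _ hJ' (Sum.inl ⟨i, hi⟩) := by
    apply Fin.ext
    simp [place]
  rw [e3, e1] at e2
  exact e2

open scoped Classical in
/-- **(D5)** few letters. -/
theorem fewT : FewT := by
  intro m S J mu _
  set F := (KT (∑ i, mu i) S).filter (fun k => Multiset.card k ≤ J) with hF
  have hmem : ∀ k ∈ F, Multiset.card k ≤ J ∧ ∀ x ∈ k, S ≤ x := by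
    intro k hk
    rw [hF, Finset.mem_filter, KT, Finset.mem_biUnion] at hk
    obtain ⟨⟨u, _, hu⟩, hc⟩ := hk
    rw [Finset.mem_filter] at hu
    exact ⟨hc, hu.2⟩
  have hlen : ∀ k : F, (k : Multiset ℕ).toList.length ≤ J := fun k => by
    rw [Multiset.length_toList]
    exact (hmem k k.2).1
  rw [← Finset.sum_coe_sort F]
  have key := sum_finrank_le (m := m) (S := S) (J := J) (mu := mu)
    (fun k : F => Fin (k : Multiset ℕ).toList.length)
    (fun k j => (k : Multiset ℕ).toList.get j) (fun k => J - (k : Multiset ℕ).toList.length)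
    (fun k => place J _ (hlen k)) (fun k => place_injective J _ (hlen k))
    (fun i i' D a1 a2 _ b1 b2 _ => Subtype.ext
      (toList_inj_of (hmem i i.2).2 (hmem i' i'.2).2 (hlen i) (hlen i') D a1 a2 b1 b2))
  refine le_trans (le_of_eq (Finset.sum_congr rfl fun k _ => ?_)) key
  rw [NT, ← Multiset.length_toList (k : Multiset ℕ)]

end Vale.Agent.P181.DG5
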